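import Vale.Agent.N196.Chain

/-!
# P196, second hand-in: `X` and `Y` generate all even floor permutations
-/

namespace Vale.Agent.N196

open Equiv Vale.Agent.P196 Vale.Agent.P196.S0 Vale.Agent.P196.Wang

section general

variable {α : Type} [DecidableEq α]

theorem alt_le_of_star [Fintype α] (K : Subgroup (Perm α)) (z β : α)
    (h : ∀ f, f ≠ z → swap z f * swap z β ∈ K) : alternatingGroup α ≤ K := by
  have h' : ∀ f, f ≠ z → swap z β * swap z f ∈ K := fun f hf => by
    have := K.inv_mem (h f hf)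
    rwa [mul_inv_rev, swap_inv, swap_inv] at this
  have ok : ∀ p q, p ≠ q → swap z β * swap p q ∈ K := by
    intro p q hpq
    by_cases hp : p = z
    · subst hp; exact h' q (Ne.symm hpq)
    by_cases hq : q = z
    · subst hq; rw [swap_comm p q]; exact h' p hp
    have e : swap p q = swap z p * swap z q * swap z p := by
      have := swap_mul_swap_mul_swap (x := q) (y := z) (z := p) hq (Ne.symm hpq)
      rw [swap_comm z q, this]
    have : swap z β * swap p q =
        swap z β * swap z p * (swap z q * swap z β) * (swap z β * swap z p) := by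
      rw [e]
      simp only [mul_assoc, swap_mul_self_mul]
    rw [this]
    exact K.mul_mem (K.mul_mem (h' p hp) (h q hq)) (h' p hp)
  refine alternating_le_of_cyc K fun a b c hab hbc _ => ?_
  have := K.mul_mem (K.inv_mem (ok a b hab)) (ok b c hbc)
  rw [mul_inv_rev, swap_inv, swap_inv, mul_assoc, swap_mul_self_mul] at this
  exact this

theorem swap_star {a b c : α} (hac : a ≠ c) (hbc : b ≠ c) :
    swap b c * swap b a = swap a b * swap a c := by
  have := swap_mul_swap_mul_swap (x := c) (y := a) (z := b) hac.symm hbc.symm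
  rw [← this, swap_comm b a, mul_assoc, swap_mul_self, mul_one, swap_comm c a]

theorem via_swap {γ : Type} [DecidableEq γ] (e : α ↪ γ) (a b : α) :
    (swap a b).viaEmbedding e = swap (e a) (e b) := by
  ext1 f
  by_cases h : f ∈ Set.range e
  · obtain ⟨x, rfl⟩ := h
    rw [Perm.viaEmbedding_apply, e.injective.map_swap]
  · rw [Perm.viaEmbedding_apply_of_notMem _ _ _ h, swap_apply_of_ne_of_ne]
    · rintro rfl; exact h ⟨a, rfl⟩
    · rintro rfl; exact h ⟨b, rfl⟩

omit [DecidableEq α] in
theorem via_conj {γ : Type} (e : α ↪ γ) (τ : Perm γ) (τ0 : Perm α) (h : ∀ x, τ (e x) = e (τ0 x))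
    (σ : Perm α) : τ * σ.viaEmbedding e * τ⁻¹ = (τ0 * σ * τ0⁻¹).viaEmbedding e := by
  rw [mul_inv_eq_iff_eq_mul]
  ext1 f
  rw [Perm.mul_apply, Perm.mul_apply]
  by_cases hf : f ∈ Set.range e
  · obtain ⟨x, rfl⟩ := hf
    rw [Perm.viaEmbedding_apply, h, h, Perm.viaEmbedding_apply]
    simp
  · rw [Perm.viaEmbedding_apply_of_notMem _ _ _ hf, Perm.viaEmbedding_apply_of_notMem]
    rintro ⟨x, hx⟩
    apply hf
    refine ⟨τ0⁻¹ x, τ.injective ?_⟩
    rw [h, ← hx]
    simp

theorem conj_eP_swap (g : Perm (Z2 × α)) {p q p' q' : α} (hp : ∀ u, g (u, p) = (u, p'))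
    (hq : ∀ u, g (u, q) = (u, q')) :
    g * eP Set.univ (swap p q) * g⁻¹ = eP Set.univ (swap p' q') := by
  rw [mul_inv_eq_iff_eq_mul]
  ext1 ⟨u, f⟩
  rw [Perm.mul_apply, Perm.mul_apply, eP_apply_mem (Set.mem_univ u)]
  by_cases h1 : f = p
  · subst h1
    rw [swap_apply_left, hq, hp, eP_apply_mem (Set.mem_univ u), swap_apply_left]
  by_cases h2 : f = q
  · subst h2
    rw [swap_apply_right, hq, hp, eP_apply_mem (Set.mem_univ u), swap_apply_right]
  rw [swap_apply_of_ne_of_ne h1 h2]
  obtain ⟨u', f', hg⟩ : ∃ u' f', g (u, f) = (u', f') := ⟨_, _, rfl⟩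
  rw [hg, eP_apply_fix]
  refine swap_apply_of_ne_of_ne ?_ ?_
  · rintro rfl
    rw [← hp u'] at hg
    exact h1 (congrArg Prod.snd (g.injective hg))
  · rintro rfl
    rw [← hq u'] at hg
    exact h2 (congrArg Prod.snd (g.injective hg))

theorem conj_eP_swap_swap (g : Perm (Z2 × α)) {p q p' q' r s r' s' : α}
    (hp : ∀ u, g (u, p) = (u, p')) (hq : ∀ u, g (u, q) = (u, q'))
    (hr : ∀ u, g (u, r) = (u, r')) (hs : ∀ u, g (u, s) = (u, s')) :
    g * eP Set.univ (swap p q * swap r s) * g⁻¹ = eP Set.univ (swap p' q' * swap r' s') := by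
  rw [← ePHom_apply, ← ePHom_apply, map_mul, map_mul, ePHom_apply, ePHom_apply, ePHom_apply,
    ePHom_apply, ← conj_eP_swap g hp hq, ← conj_eP_swap g hr hs]
  group

end general

/-- the subgroup generated by `X` and `Y`. -/
noncomputable def HH : Subgroup (Perm (Z2 × Fl)) := Subgroup.closure {X, Y}

theorem X_mem : X ∈ HH := Subgroup.subset_closure (Or.inl rfl)

theorem Y_mem : Y ∈ HH := Subgroup.subset_closure (Or.inr rfl)

/-- the floor permutations in `HH`. -/
noncomputable def KK : Subgroup (Perm Fl) := HH.comap (ePHom Set.univ)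

/-- those supported in the special block. -/
noncomputable def K0 : Subgroup (Perm (Option P)) := KK.comap (Perm.viaEmbeddingHom emb)

theorem yF_mem : yF ∈ KK := Y_mem

theorem g0_mem : g0 ∈ K0 := by
  change eP Set.univ (g0.viaEmbedding emb) ∈ HH
  rw [← W6, W]
  exact HH.pow_mem (HH.mul_mem (HH.mul_mem (HH.mul_mem X_mem Y_mem) X_mem) (HH.inv_mem Y_mem)) 6

/-- the rotation of the special block. -/
def y0 : Perm (Option P) :=
  ⟨Option.map rf, Option.map fun p => rf (rf p), by decide, by decide⟩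

theorem y0_conj {σ : Perm (Option P)} (h : σ ∈ K0) : y0 * σ * y0⁻¹ ∈ K0 := by
  change (y0 * σ * y0⁻¹).viaEmbedding emb ∈ KK
  rw [← via_conj emb yF y0 fun x => by cases x <;> rfl]
  exact KK.mul_mem (KK.mul_mem yF_mem h) (KK.inv_mem yF_mem)

theorem local_one : ((y0 * (y0 * g0 * y0⁻¹) * y0⁻¹) * g0⁻¹ * (y0 * g0 * y0⁻¹)⁻¹ *
    (y0 * (y0 * g0 * y0⁻¹) * y0⁻¹)) ^ 40 =
    g0 * (swap (some .a3) (some .b0) * swap (some .b0) (some .a4)) * g0⁻¹ :=
  Equiv.ext (by decide +kernel)

theorem local_two : y0 * (g0 * (y0 * (swap (some .c2) (some .b0) * swap (some .b0) (some .c3)) *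
    y0⁻¹) * g0⁻¹) * y0⁻¹ = swap none (some .c2) * swap none (some .b2) :=
  Equiv.ext (by decide +kernel)

theorem mem_K0_swap {a b c d : Option P} : swap a b * swap c d ∈ K0 ↔
    eP Set.univ (swap (emb a) (emb b) * swap (emb c) (emb d)) ∈ HH := by
  change eP Set.univ (Perm.viaEmbeddingHom emb (swap a b * swap c d)) ∈ HH ↔ _
  rw [map_mul, Perm.viaEmbeddingHom_apply, Perm.viaEmbeddingHom_apply, via_swap, via_swap]

theorem base_mem : swap none (some (j0, P.c2)) * swap none (some (j0, P.b2)) ∈ KK := by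
  have h1 := y0_conj g0_mem
  have h2 := y0_conj h1
  have h3 := K0.pow_mem (K0.mul_mem (K0.mul_mem (K0.mul_mem h2 (K0.inv_mem g0_mem))
    (K0.inv_mem h1)) h2) 40
  rw [local_one] at h3
  have h4 : swap (some P.a3) (some P.b0) * swap (some P.b0) (some P.a4) ∈ K0 := by
    have := K0.mul_mem (K0.mul_mem (K0.inv_mem g0_mem) h3) g0_mem
    simpa [mul_assoc] using this
  rw [mem_K0_swap] at h4
  have h5 := HH.mul_mem (HH.mul_mem X_mem h4) (HH.inv_mem X_mem)
  rw [conj_eP_swap_swap X (p' := emb (some .c2)) (q' := emb (some .b0)) (r' := emb (some .b0))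
    (s' := emb (some .c3)) (fun u => by simp [X_other, cf]) (fun u => by simp [X_other, cf])
    (fun u => by simp [X_other, cf]) (fun u => by simp [X_other, cf]), ← mem_K0_swap] at h5
  have h6 := y0_conj (K0.mul_mem (K0.mul_mem g0_mem (y0_conj h5)) (K0.inv_mem g0_mem))
  rw [local_two, mem_K0_swap] at h6
  exact h6

/-- the floor `f` is reached. -/
def Rch (f : Fl) : Prop := swap none f * swap none (some (j0, P.b2)) ∈ KK

theorem rch_y {j : B} {p p' : P} (h : Rch (some (j, p))) (hp : rf p = p') :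
    Rch (some (j, p')) := by
  subst hp
  have h1 := KK.mul_mem (KK.mul_mem yF_mem h) (KK.inv_mem yF_mem)
  have e : yF * (swap none (some (j, p)) * swap none (some (j0, P.b2))) * yF⁻¹ =
      swap none (some (j, rf p)) * swap none (some (j0, P.c2)) := by
    have e1 := swap_apply_apply yF none (some (j, p))
    have e2 := swap_apply_apply yF none (some (j0, P.b2))
    rw [yF_none, yF_some] at e1 e2
    rw [e1, show P.c2 = rf P.b2 from rfl, e2]
    group
  rw [e] at h1
  have h2 := KK.mul_mem h1 base_mem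
  rwa [mul_assoc, swap_mul_self_mul] at h2

theorem rch_x {j j' : B} {p p' : P} (hX : ∀ u, X (u, some (j, p)) = (u, some (j', p')))
    (hp' : p' ≠ .b2) (h : Rch (some (j, p))) : Rch (some (j', p')) := by
  have h1 := HH.mul_mem (HH.mul_mem X_mem h) (HH.inv_mem X_mem)
  have hz : ∀ u, X (u, some (j0, P.b2)) = (u, none) := fun u => by simp [X_b2]
  rw [ePHom_apply, conj_eP_swap_swap X X_none hX X_none hz,
    swap_star (by simp) (by simp [Ne.symm hp'])] at h1
  have h2 : swap none (some (j0, P.b2)) * swap none (some (j', p')) ∈ KK := h1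
  have h3 := KK.inv_mem h2
  rwa [mul_inv_rev, swap_inv, swap_inv] at h3

theorem rch_block {j : B} (h : Rch (some (j, .a0))) (p : P) : Rch (some (j, p)) := by
  have b0 : Rch (some (j, .b0)) := rch_y h rfl
  have c0 : Rch (some (j, .c0)) := rch_y b0 rfl
  have a1 : Rch (some (j, .a1)) := rch_x (fun u => by simp [X_other, cf]) (by simp) c0
  have b1 : Rch (some (j, .b1)) := rch_y a1 rfl
  have c1 : Rch (some (j, .c1)) := rch_y b1 rfl
  have a2 : Rch (some (j, .a2)) := rch_x (fun u => by simp [X_other, cf]) (by simp) c1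
  have b2 : Rch (some (j, .b2)) := rch_y a2 rfl
  have c2 : Rch (some (j, .c2)) := rch_y b2 rfl
  have a3 : Rch (some (j, .a3)) := rch_x (fun u => by simp [X_other, cf]) (by simp) c2
  have b3 : Rch (some (j, .b3)) := rch_y a3 rfl
  have c3 : Rch (some (j, .c3)) := rch_y b3 rfl
  have a4 : Rch (some (j, .a4)) := rch_x (fun u => by simp [X_other, cf]) (by simp) c3
  have b4 : Rch (some (j, .b4)) := rch_y a4 rfl
  have c4 : Rch (some (j, .c4)) := rch_y b4 rfl
  have a5 : Rch (some (j, .a5)) := rch_x (fun u => by simp [X_other, cf]) (by simp) c4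
  have b5 : Rch (some (j, .b5)) := rch_y a5 rfl
  have c5 : Rch (some (j, .c5)) := rch_y b5 rfl
  cases p
  exacts [h, b0, c0, a1, b1, c1, a2, b2, c2, a3, b3, c3, a4, b4, c4, a5, b5, c5]

theorem rch_start : Rch (some (j0, .a0)) := by
  have c2 : Rch (some (j0, .c2)) := base_mem
  have a2 : Rch (some (j0, .a2)) := rch_y c2 rfl
  have c1 : Rch (some (j0, .c1)) := rch_x (fun u => by simp [X_other, cf]) (by simp) a2
  have a1 : Rch (some (j0, .a1)) := rch_y c1 rfl
  have c0 : Rch (some (j0, .c0)) := rch_x (fun u => by simp [X_other, cf]) (by simp) a1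
  exact rch_y c0 rfl

theorem rch_all (j : B) (p : P) : Rch (some (j, p)) := by
  obtain ⟨n, rfl⟩ := nx_spec j
  refine rch_block ?_ p
  induction n with
  | zero => exact rch_start
  | succ n ih =>
    rw [pow_succ', Perm.mul_apply]
    exact rch_x (fun u => by simp [X_other, cf]) (by simp) (rch_block ih .c5)

theorem good_univ : Good HH Set.univ := by
  have : alternatingGroup Fl ≤ KK := by
    refine alt_le_of_star KK none (some (j0, P.b2)) fun f hf => ?_
    rcases f with _ | ⟨j, p⟩
    · exact absurd rfl hf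
    · exact rch_all j p
  exact fun a ha => this ha

end Vale.Agent.N196
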