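import Vale.Agent.N196.Gen

/-!
# P196, second hand-in: a chain of triangles

The floors are a cyclic chain of blocks of six triangles `(a k, b k, c k)`, and one more floor.
`Y` rotates the triangles.  `X` joins `c k` to `a (k+1)`, joins the extra floor to `b 2` in the
block `j0`, and in the other blocks carries a handle `b 2 ↔ b 3` that depends on the tile or
translates the lattice.
-/

namespace Vale.Agent.N196

open Equiv Vale.Agent.P196 Vale.Agent.P196.S0 Vale.Agent.P196.Wang

/-- positions in a block. -/
inductive P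
  | a0 | b0 | c0 | a1 | b1 | c1 | a2 | b2 | c2 | a3 | b3 | c3 | a4 | b4 | c4 | a5 | b5 | c5
  deriving DecidableEq

instance : Fintype P :=
  ⟨⟨([.a0, .b0, .c0, .a1, .b1, .c1, .a2, .b2, .c2, .a3, .b3, .c3, .a4, .b4, .c4, .a5, .b5, .c5] :
    List P), by decide⟩, fun x => by cases x <;> decide⟩

/-- blocks. -/
abbrev B := (Tile × Bool) ⊕ Fin 4

/-- floors. -/
abbrev Fl := Option (B × P)

/-- the special block. -/
def j0 : B := .inr 0

theorem exists_cyclic {α : Type} [Fintype α] [DecidableEq α] (a : α) :
    ∃ f : Perm α, ∀ j : α, ∃ n : ℕ, (f ^ n) a = j := by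
  obtain ⟨f, hf, -⟩ := (Finset.univ : Finset α).exists_cycleOn
  refine ⟨f, fun j => ?_⟩
  obtain ⟨n, -, hn⟩ := (hf.2 (Finset.mem_coe.2 (Finset.mem_univ a))
    (Finset.mem_coe.2 (Finset.mem_univ j))).exists_pow_eq'
  exact ⟨n, hn⟩

theorem exists_nx : ∃ nx : Perm B, ∀ j : B, ∃ n : ℕ, (nx ^ n) j0 = j := exists_cyclic j0

/-- the next block. -/
noncomputable def nx : Perm B := exists_nx.choose

theorem nx_spec (j : B) : ∃ n : ℕ, (nx ^ n) j0 = j := exists_nx.choose_spec j

/-- is the handle of the block present above the tile? -/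
def on : B → Tile → Bool
  | .inl p, θ => decide (p.1 = θ)
  | .inr i, _ => decide (i ≠ 0)

/-- the translation of the handle. -/
def vv : B → Z2
  | .inl _ => 0
  | .inr i => if i = 1 then (1, 0) else if i = 2 then (0, 1) else 0

@[simp] theorem on_j0 (θ : Tile) : on j0 θ = false := rfl

theorem vv_of_off {j : B} {θ : Tile} (h : on j θ = false) : vv j = 0 := by
  rcases j with p | i
  · rfl
  · have : i = 0 := by simpa [on] using h
    subst this
    rfl

@[simp] theorem on_add (j : B) (u : Z2) : on j (t (u + vv j)) = on j (t u) := by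
  rcases j with p | i
  · simp [vv]
  · rfl

@[simp] theorem on_sub (j : B) (u : Z2) : on j (t (u - vv j)) = on j (t u) := by
  rcases j with p | i
  · simp [vv]
  · rfl

/-- rotation of the triangles. -/
def rf : P → P
  | .a0 => .b0 | .b0 => .c0 | .c0 => .a0
  | .a1 => .b1 | .b1 => .c1 | .c1 => .a1
  | .a2 => .b2 | .b2 => .c2 | .c2 => .a2
  | .a3 => .b3 | .b3 => .c3 | .c3 => .a3
  | .a4 => .b4 | .b4 => .c4 | .c4 => .a4
  | .a5 => .b5 | .b5 => .c5 | .c5 => .a5

/-- the floor permutation of order three. -/
def yF : Perm Fl where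
  toFun f := f.map fun q => (q.1, rf q.2)
  invFun f := f.map fun q => (q.1, rf (rf q.2))
  left_inv f := by rcases f with _ | ⟨j, p⟩; · rfl
                   cases p <;> rfl
  right_inv f := by rcases f with _ | ⟨j, p⟩; · rfl
                    cases p <;> rfl

@[simp] theorem yF_none : yF none = none := rfl
@[simp] theorem yF_some (j : B) (p : P) : yF (some (j, p)) = some (j, rf p) := rfl
@[simp] theorem yF_inv_none : yF⁻¹ none = none := rfl
@[simp] theorem yF_inv_some (j : B) (p : P) : yF⁻¹ (some (j, p)) = some (j, rf (rf p)) := rfl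

/-- the floor involution above the tile `θ`. -/
noncomputable def cf (θ : Tile) : Fl → Fl
  | none => some (j0, .b2)
  | some (j, .a0) => some (nx⁻¹ j, .c5)
  | some (j, .c5) => some (nx j, .a0)
  | some (j, .c0) => some (j, .a1)
  | some (j, .a1) => some (j, .c0)
  | some (j, .c1) => some (j, .a2)
  | some (j, .a2) => some (j, .c1)
  | some (j, .c2) => some (j, .a3)
  | some (j, .a3) => some (j, .c2)
  | some (j, .c3) => some (j, .a4)
  | some (j, .a4) => some (j, .c3)
  | some (j, .c4) => some (j, .a5)
  | some (j, .a5) => some (j, .c4)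
  | some (j, .b0) => some (j, .b0)
  | some (j, .b1) => some (j, .b1)
  | some (j, .b4) => some (j, .b4)
  | some (j, .b5) => some (j, .b5)
  | some (j, .b2) => if j = j0 then none else if on j θ then some (j, .b3) else some (j, .b2)
  | some (j, .b3) => if on j θ then some (j, .b2) else some (j, .b3)

theorem cf_invol (θ : Tile) : Function.Involutive (cf θ) := by
  intro f
  rcases f with _ | ⟨j, p⟩
  · simp [cf]
  cases p
  case b2 =>
    by_cases hj : j = j0
    · simp [cf, hj]
    · cases h : on j θ <;> simp [cf, hj, h]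
  case b3 =>
    cases h : on j θ
    · simp [cf, h]
    · have hj : j ≠ j0 := by rintro rfl; simp at h
      simp [cf, hj, h]
  all_goals simp [cf]

/-- the floor involution as a permutation. -/
noncomputable def cP (θ : Tile) : Perm Fl := (cf_invol θ).toPerm

@[simp] theorem cP_apply (θ : Tile) (f : Fl) : cP θ f = cf θ f := rfl

/-- the translations of the floors. -/
def wv : Fl → Z2
  | some (j, .b2) => -vv j
  | some (j, .b3) => vv j
  | _ => 0

/-- the tile dependent floor permutation. -/
noncomputable def Cc : Perm (Z2 × Fl) := Equiv.prodCongrRight fun u => cP (t u)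

/-- the involution. -/
noncomputable def X : Perm (Z2 × Fl) := dP wv * Cc

/-- the element of order three. -/
noncomputable def Y : Perm (Z2 × Fl) := eP Set.univ yF

theorem X_apply (u : Z2) (f : Fl) : X (u, f) = (u + wv (cf (t u) f), cf (t u) f) := rfl

theorem Y_apply (u : Z2) (f : Fl) : Y (u, f) = (u, yF f) := eP_apply_mem (Set.mem_univ u)

theorem Y_inv_apply (u : Z2) (f : Fl) : Y⁻¹ (u, f) = (u, yF⁻¹ f) := by
  rw [Perm.inv_eq_iff_eq, Y_apply, ← Perm.mul_apply, mul_inv_cancel, Perm.one_apply]

theorem X_none (u : Z2) : X (u, none) = (u, some (j0, .b2)) := by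
  simp [X_apply, cf, wv, j0, vv]

theorem X_b2 (u : Z2) (j : B) : X (u, some (j, .b2)) =
    if j = j0 then (u, none) else if on j (t u) then (u + vv j, some (j, .b3))
      else (u, some (j, .b2)) := by
  by_cases hj : j = j0
  · simp [X_apply, cf, wv, hj]
  · cases h : on j (t u)
    · simp [X_apply, cf, wv, hj, h, vv_of_off h]
    · simp [X_apply, cf, wv, hj, h]

theorem X_b3 (u : Z2) (j : B) : X (u, some (j, .b3)) =
    if on j (t u) then (u - vv j, some (j, .b2)) else (u, some (j, .b3)) := by
  cases h : on j (t u)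
  · simp [X_apply, cf, wv, h, vv_of_off h]
  · simp [X_apply, cf, wv, h, sub_eq_add_neg]

theorem X_other (u : Z2) (j : B) {p : P} (h2 : p ≠ .b2) (h3 : p ≠ .b3) :
    X (u, some (j, p)) = (u, cf (t u) (some (j, p))) := by
  cases p <;> simp_all [X_apply, cf, wv]

theorem X_sq : X * X = 1 := by
  ext1 ⟨u, f⟩
  rw [Perm.mul_apply, Perm.one_apply]
  rcases f with _ | ⟨j, p⟩
  · simp [X_none, X_b2]
  cases p
  case b2 =>
    by_cases hj : j = j0
    · simp [X_b2, X_none, hj]
    · cases h : on j (t u) <;> simp [X_b2, X_b3, hj, h]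
  case b3 =>
    cases h : on j (t u)
    · simp [X_b3, h]
    · have hj : j ≠ j0 := by rintro rfl; simp at h
      simp [X_b2, X_b3, hj, h]
  all_goals simp [X_other, cf]

/-- the commutator. -/
noncomputable def W : Perm (Z2 × Fl) := X * Y * X * Y⁻¹

/-- the table of the commutator. -/
noncomputable def wf : Z2 × Fl → Z2 × Fl
  | (u, none) => (u, some (j0, .a3))
  | (u, some (j, .a0)) => (u, some (j, .b1))
  | (u, some (j, .a1)) => if j = j0 then (u, none) else if on j (t u) then
      (u + vv j, some (j, .b3)) else (u, some (j, .b2))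
  | (u, some (j, .a2)) => if on j (t u) then (u - vv j, some (j, .b2)) else (u, some (j, .b3))
  | (u, some (j, .a3)) => (u, some (j, .b4))
  | (u, some (j, .a4)) => (u, some (j, .b5))
  | (u, some (j, .a5)) => (u, some (nx j, .b0))
  | (u, some (j, .b0)) => (u, some (nx⁻¹ j, .c4))
  | (u, some (j, .b1)) => (u, some (nx⁻¹ j, .c5))
  | (u, some (j, .b2)) => (u, some (j, .c0))
  | (u, some (j, .b3)) => (u, some (j, .c1))
  | (u, some (j, .b4)) => (u, some (j, .c2))
  | (u, some (j, .b5)) => (u, some (j, .c3))
  | (u, some (j, .c0)) => (u, some (j, .a1))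
  | (u, some (j, .c1)) => (u, some (j, .a2))
  | (u, some (j, .c2)) => if j = j0 then (u, some (j0, .b2)) else if on j (t u) then
      (u + vv j, some (j, .a4)) else (u, some (j, .a3))
  | (u, some (j, .c3)) => if on j (t u) then (u - vv j, some (j, .a3)) else (u, some (j, .a4))
  | (u, some (j, .c4)) => (u, some (j, .a5))
  | (u, some (j, .c5)) => (u, some (nx j, .a0))

theorem W_apply (q : Z2 × Fl) : W q = wf q := by
  obtain ⟨u, f⟩ := q
  rw [W, Perm.mul_apply, Perm.mul_apply, Perm.mul_apply, Y_inv_apply]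
  rcases f with _ | ⟨j, p⟩
  · simp [X_none, Y_apply, X_other, rf, cf, wf]
  cases p
  case c2 =>
    by_cases hj : j = j0
    · simp [X_b2, X_none, Y_apply, rf, wf, hj]
    · cases h : on j (t u) <;> simp [X_b2, Y_apply, X_other, rf, cf, wf, hj, h]
  case c3 =>
    cases h : on j (t u) <;> simp [X_b3, Y_apply, X_other, rf, cf, wf, h]
  case a1 => simp [X_b2, Y_apply, X_other, rf, cf, wf]
  case a2 => simp [X_b3, Y_apply, X_other, rf, cf, wf]
  all_goals simp [Y_apply, X_other, rf, cf, wf]

/-- the `7`-cycle in the special block. -/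
def gf : Option P → Option P
  | none => some .a1
  | some .a1 => some .c0
  | some .c0 => some .b2
  | some .b2 => some .c2
  | some .c2 => some .b4
  | some .b4 => some .a3
  | some .a3 => none
  | x => x

/-- its inverse. -/
def gf' : Option P → Option P
  | some .a1 => none
  | some .c0 => some .a1
  | some .b2 => some .c0
  | some .c2 => some .b2
  | some .b4 => some .c2
  | some .a3 => some .b4
  | none => some .a3
  | x => x

/-- the `7`-cycle as a permutation. -/
def g0 : Perm (Option P) := ⟨gf, gf', by decide, by decide⟩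

/-- the special block with the extra floor. -/
def emb : Option P ↪ Fl where
  toFun x := x.map fun p => (j0, p)
  inj' := Option.map_injective fun _ _ h => congrArg Prod.snd h

@[simp] theorem emb_none : emb none = none := rfl
@[simp] theorem emb_some (p : P) : emb (some p) = some (j0, p) := rfl

theorem pow_six_apply {α : Type} (σ : Perm α) (g : α → α) (h : ∀ q, σ q = g q) (q : α) :
    (σ ^ 6) q = g (g (g (g (g (g q))))) := by
  simp only [pow_succ, pow_zero, one_mul, Perm.mul_apply, h]

theorem W6_apply (q : Z2 × Fl) : (W ^ 6) q = wf (wf (wf (wf (wf (wf q))))) :=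
  pow_six_apply W wf W_apply q

theorem W6_emb (u : Z2) (x : Option P) : (W ^ 6) (u, emb x) = (u, emb (gf x)) := by
  rw [W6_apply]
  rcases x with _ | p
  · simp [wf, gf]
  cases p <;> simp [wf, gf]

theorem W6_other (u : Z2) {j : B} (hj : j ≠ j0) (p : P) :
    (W ^ 6) (u, some (j, p)) = (u, some (j, p)) := by
  rw [W6_apply]
  cases h : on j (t u) <;> cases p <;> simp [wf, hj, h]

theorem mem_range_emb {f : Fl} (h : f ∉ Set.range emb) : ∃ j p, j ≠ j0 ∧ f = some (j, p) := by
  rcases f with _ | ⟨j, p⟩
  · exact absurd ⟨none, rfl⟩ h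
  · exact ⟨j, p, by rintro rfl; exact h ⟨some p, rfl⟩, rfl⟩

theorem W6 : W ^ 6 = eP Set.univ (g0.viaEmbedding emb) := by
  ext1 ⟨u, f⟩
  rw [eP_apply_mem (Set.mem_univ u)]
  by_cases h : f ∈ Set.range emb
  · obtain ⟨x, rfl⟩ := h
    rw [W6_emb, Perm.viaEmbedding_apply]
    rfl
  · rw [Perm.viaEmbedding_apply_of_notMem _ _ _ h]
    obtain ⟨j, p, hj, rfl⟩ := mem_range_emb h
    exact W6_other u hj p

end Vale.Agent.N196
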