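import Vale.Agent.N196.Gen

/-!
# P196, second hand-in: a free submonoid of rank two in `grp ι LS`, and exponential growth
-/

namespace Vale.Agent.N196

open Equiv Vale.Agent.P196 Vale.Agent.P196.S0 Vale.Agent.P196.Wang

/-- some tile is not placed periodically in the horizontal direction. -/
theorem exists_nonperiodic : ∃ θ : Tile, ∀ N : ℕ, 0 < N →
    ¬ Function.Periodic (fun u : Z2 => u ∈ Tl θ) ((N : ℤ), 0) := by
  by_contra hcon
  push Not at hcon
  choose N hN hper using hcon
  obtain ⟨M, hM0, hM⟩ : ∃ M : ℕ, 0 < M ∧ ∀ θ, N θ ∣ M :=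
    ⟨∏ θ, N θ, Finset.prod_pos fun θ _ => hN θ,
      fun θ => Finset.dvd_prod_of_mem _ (Finset.mem_univ θ)⟩
  have ht : ∀ u : Z2, t (u + ((M : ℤ), 0)) = t u := by
    intro u
    obtain ⟨k, hk⟩ := hM (t u)
    have h := (hper (t u)).nsmul k u
    have e : k • (((N (t u) : ℕ) : ℤ), (0 : ℤ)) = ((M : ℤ), 0) := by
      rw [hk]
      simp [mul_comm]
    rw [e] at h
    exact (iff_of_eq h).2 rfl
  obtain ⟨F, ⟨R, hR⟩, h0, hF⟩ := localSets.free ((M : ℤ), 0) (by
    simp only [ne_eq, Prod.mk_eq_zero, and_true]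
    exact_mod_cast hM0.ne') 0
  refine hF 0 h0 ((hR 0 _ fun a b _ _ => ?_).1 h0)
  rw [← ht ((0 - ((M : ℤ), (0 : ℤ)) : Z2).1 + a, (0 - ((M : ℤ), (0 : ℤ)) : Z2).2 + b)]
  refine congrArg t ?_
  simp

/-- a sequence in which each term is determined by the previous `d` terms is periodic. -/
theorem periodic_of_determined (s : ℤ → Prop) (d : ℕ)
    (h : ∀ m m' : ℤ, (∀ i : ℕ, i < d → (s (m - 1 - i) ↔ s (m' - 1 - i))) → (s m ↔ s m'))
    (m : ℤ) : s (m + ((2 ^ d).factorial : ℕ)) ↔ s m := by
  classical
  let Φ : ℤ → Fin d → Bool := fun n i => decide (s (n - 1 - (i : ℕ)))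
  have hΦ : ∀ n n', Φ n = Φ n' ↔ ∀ i : ℕ, i < d → (s (n - 1 - i) ↔ s (n' - 1 - i)) := by
    intro n n'
    constructor
    · intro hh i hi
      simpa [Φ] using congrFun hh ⟨i, hi⟩
    · intro hh
      funext i
      simpa [Φ] using hh i i.2
  have step : ∀ n n', Φ n = Φ n' → Φ (n + 1) = Φ (n' + 1) := by
    intro n n' hh
    rw [hΦ] at hh ⊢
    intro i hi
    rcases i with _ | i
    · simpa using h n n' hh
    · have := hh i (by omega)
      push_cast
      rwa [show n + 1 - 1 - (i + 1) = n - 1 - i by ring,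
        show n' + 1 - 1 - (i + 1) = n' - 1 - i by ring]
  have steps : ∀ n n', Φ n = Φ n' → ∀ k : ℕ, Φ (n + k) = Φ (n' + k) := by
    intro n n' hh k
    induction k with
    | zero => simpa using hh
    | succ k ih =>
      push_cast
      rw [← add_assoc, ← add_assoc]
      exact step _ _ ih
  have key : ∀ i i' : ℕ, i < i' → i' ≤ 2 ^ d → Φ (m - i) = Φ (m - i') →
      (s (m + ((2 ^ d).factorial : ℕ)) ↔ s m) := by
    intro i i' hii hi' hh
    obtain ⟨q, rfl⟩ := Nat.exists_eq_add_of_lt hii
    have h1 : ∀ k : ℕ, Φ (m + k + (q + 1 : ℕ)) = Φ (m + k) := by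
      intro k
      have := steps _ _ hh (i + q + 1 + k)
      push_cast at this ⊢
      rwa [show m - i + (i + q + 1 + k) = m + k + (q + 1) by ring,
        show m - (i + q + 1) + (i + q + 1 + k) = m + k by ring] at this
    have h2 : ∀ r : ℕ, Φ (m + ((q + 1) * r : ℕ)) = Φ m := by
      intro r
      induction r with
      | zero => simp
      | succ r ih =>
        rw [← ih, ← h1 ((q + 1) * r)]
        congr 1
        push_cast
        ring
    obtain ⟨r, hr⟩ : q + 1 ∣ (2 ^ d).factorial := Nat.dvd_factorial (by omega) (by omega)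
    rw [hr]
    exact h _ _ ((hΦ _ _).1 (h2 r))
  obtain ⟨i, i', hne, hh⟩ := Fintype.exists_ne_map_eq_of_card_lt
    (fun i : Fin (2 ^ d + 1) => Φ (m - (i : ℕ))) (by simp)
  rcases lt_or_gt_of_ne (fun e => hne (Fin.ext e)) with hlt | hlt
  · exact key i i' hlt (by omega) hh
  · exact key i' i hlt (by omega) hh.symm

section words

variable {ι : Type} (T : Set Z2) (c : Perm ι) (w : ι → Z2)

/-- the two letters. -/
noncomputable def letter (b : Bool) : Perm (Z2 × ι) := if b then eP T c * dP w else dP w

open Classical in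
/-- the number of lamps met. -/
noncomputable def kk : List Bool → Z2 → ℕ
  | [], _ => 0
  | b :: l, u => kk l u + if b = true ∧ u + ((l.length + 1 : ℤ), 0) ∈ T then 1 else 0

theorem kk_congr (l : List Bool) (u u' : Z2)
    (h : ∀ i : ℕ, i < l.length → (u + ((i + 1 : ℤ), 0) ∈ T ↔ u' + ((i + 1 : ℤ), 0) ∈ T)) :
    kk T l u = kk T l u' := by
  induction l with
  | nil => rfl
  | cons b l ih =>
    rw [kk, kk, ih fun i hi => h i (by simp; omega), h l.length (by simp)]

variable {T c w}

theorem word_apply (hw : ∀ f, c f ≠ f → w f = (1, 0)) (l : List Bool) (u : Z2) {f : ι}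
    (hf : c f ≠ f) : (l.map (letter T c w)).prod (u, f) =
      (u + ((l.length : ℤ), 0), (c ^ kk T l u) f) := by
  induction l with
  | nil => simp [kk]
  | cons b l ih =>
    have hf' : c ((c ^ kk T l u) f) ≠ (c ^ kk T l u) f := by
      rw [← Perm.mul_apply, ← pow_succ', pow_succ, Perm.mul_apply]
      exact fun h => hf ((c ^ kk T l u).injective h)
    have e : u + ((l.length : ℤ), 0) + (1, 0) = u + ((l.length + 1 : ℤ), 0) := by
      simp [add_assoc]
    rw [List.map_cons, List.prod_cons, Perm.mul_apply, ih, kk, List.length_cons, Nat.cast_add,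
      Nat.cast_one]
    cases b
    · simp only [letter, Bool.false_eq_true, if_false, dP_apply, hw _ hf', e, false_and, add_zero]
    · by_cases hu : u + ((l.length + 1 : ℤ), 0) ∈ T
      · simp only [letter, if_true, Perm.mul_apply, dP_apply, hw _ hf', e, hu, and_self]
        rw [eP_apply_mem hu, pow_succ' c, Perm.mul_apply]
      · simp only [letter, if_true, Perm.mul_apply, dP_apply, hw _ hf', e, hu, and_false,
          if_false, add_zero]
        rw [eP_apply_notMem hu]

theorem words_ne (hT : ∀ N : ℕ, 0 < N → ¬ Function.Periodic (fun u : Z2 => u ∈ T) ((N : ℤ), 0))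
    (hw : ∀ f, c f ≠ f → w f = (1, 0)) {f : ι} (hf : c f ≠ f) (l l' : List Bool)
    (hl : l.length = l'.length) :
    ((true :: l).map (letter T c w)).prod ≠ ((false :: l').map (letter T c w)).prod := by
  classical
  intro h
  have h1 : ∀ u : Z2, (c ^ kk T (true :: l) u) f = (c ^ kk T l' u) f := by
    intro u
    have := congrArg (fun g : Perm (Z2 × ι) => (g (u, f)).2) h
    simpa only [word_apply hw _ u hf, kk, Bool.false_eq_true, false_and, if_false, add_zero]
      using this
  refine hT ((2 ^ l.length).factorial) (Nat.factorial_pos _) fun u => propext ?_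
  have := periodic_of_determined (fun m => ((m, u.2) : Z2) ∈ T) l.length (fun m m' hm => ?_) u.1
  · simpa [Prod.add_def] using this
  set x : Z2 := (m - 1 - l.length, u.2) with hx
  set x' : Z2 := (m' - 1 - l.length, u.2) with hx'
  have hwin : ∀ i : ℕ, i < l.length →
      (x + ((i + 1 : ℤ), 0) ∈ T ↔ x' + ((i + 1 : ℤ), 0) ∈ T) := by
    intro i hi
    obtain ⟨j, hj⟩ := Nat.exists_eq_add_of_lt hi
    have h2 := hm j (by omega)
    have e : ∀ n : ℤ, ((n - 1 - l.length, u.2) : Z2) + ((i + 1 : ℤ), 0) = (n - 1 - j, u.2) := by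
      intro n
      rw [hj]
      ext
      · push_cast
        simp only [Prod.fst_add]
        ring
      · simp
    rw [hx, hx', e, e]
    exact h2
  have h3 := h1 x
  have h4 := h1 x'
  rw [← kk_congr T l' x x' (by rwa [← hl]), ← h3, kk, kk, ← kk_congr T l x x' hwin, pow_add,
    pow_add, Perm.mul_apply, Perm.mul_apply] at h4
  have h5 := (c ^ kk T l x).injective h4
  have e : ∀ n : ℤ, ((n - 1 - l.length, u.2) : Z2) + ((l.length + 1 : ℤ), 0) = (n, u.2) := by
    intro n
    ext
    · simp only [Prod.fst_add]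
      ring
    · simp
  rw [hx, hx', e, e] at h5
  by_cases a1 : ((m, u.2) : Z2) ∈ T <;> by_cases a2 : ((m', u.2) : Z2) ∈ T
  · simp [a1, a2]
  · simp [a1, a2] at h5
    exact absurd h5.symm hf
  · simp [a1, a2] at h5
    exact absurd h5 hf
  · simp [a1, a2]

theorem words_injective
    (hT : ∀ N : ℕ, 0 < N → ¬ Function.Periodic (fun u : Z2 => u ∈ T) ((N : ℤ), 0))
    (hw : ∀ f, c f ≠ f → w f = (1, 0)) {f : ι} (hf : c f ≠ f) (l l' : List Bool)
    (h : (l.map (letter T c w)).prod = (l'.map (letter T c w)).prod) : l = l' := by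
  have hl : l.length = l'.length := by
    have := congrArg (fun g : Perm (Z2 × ι) => (g (0, f)).1.1) h
    simpa [word_apply hw _ 0 hf] using this
  induction l generalizing l' with
  | nil => exact (List.length_eq_zero_iff.1 hl.symm).symm
  | cons b l ih =>
    rcases l' with _ | ⟨b', l'⟩
    · simp at hl
    have hl' : l.length = l'.length := by simpa using hl
    by_cases hb : b = b'
    · subst hb
      rw [List.map_cons, List.map_cons, List.prod_cons, List.prod_cons, mul_right_inj] at h
      rw [ih l' h hl']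
    · cases b <;> cases b'
      · exact absurd rfl hb
      · exact absurd h.symm (words_ne hT hw hf l' l hl'.symm)
      · exact absurd h (words_ne hT hw hf l l' hl')
      · exact absurd rfl hb

end words

theorem free_submonoid {ι : Type} [Fintype ι] [DecidableEq ι] (hι : 5 ≤ Fintype.card ι) :
    ∃ φ : FreeMonoid Bool →* grp ι LS, Function.Injective φ := by
  obtain ⟨θ, hθ⟩ := exists_nonperiodic
  obtain ⟨f1, -⟩ := exists_floor hι ∅ (by simp)
  obtain ⟨f2, h2⟩ := exists_floor hι {f1} (by simp)
  obtain ⟨f3, h3⟩ := exists_floor hι {f1, f2} ((Finset.card_le_two).trans (by norm_num))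
  simp only [Finset.mem_insert, Finset.mem_singleton, not_or] at h2 h3
  obtain ⟨w, hw, e1, e2, e3⟩ := exists_w hι (Ne.symm h2) (Ne.symm h3.2) (Ne.symm h3.1)
    (1, 0) (1, 0) (1, 0)
  have hw' : ∀ f, cyc f1 f2 f3 f ≠ f → w f = (1, 0) := fun f hf => by
    by_contra hne
    refine hf (cyc_apply_of ?_ ?_ ?_) <;> rintro rfl
    exacts [hne e1, hne e2, hne e3]
  have hf : cyc f1 f2 f3 f1 ≠ f1 := by rw [cyc_apply_a (Ne.symm h2) (Ne.symm h3.1)]; exact h2
  have hmem : ∀ b, letter (Tl θ) (cyc f1 f2 f3) w b ∈ grp ι LS := by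
    intro b
    cases b
    · exact dP_mem hw
    · exact (grp ι LS).mul_mem
        (eP_mem (Tl_mem θ) (cyc_mem_alternating (Ne.symm h2) (Ne.symm h3.2))) (dP_mem hw)
  refine ⟨FreeMonoid.lift fun b => ⟨_, hmem b⟩, fun l l' h => ?_⟩
  have h' := congrArg (grp ι LS).subtype h
  rw [FreeMonoid.lift_apply, FreeMonoid.lift_apply, map_list_prod, map_list_prod, List.map_map,
    List.map_map] at h'
  exact FreeMonoid.toList.injective (words_injective hθ hw' hf _ _ h')

/-- exponential growth. -/
theorem growth {G : Type} [Group G] {x y : G} (hx : x * x = 1) (hy : y ^ 3 = 1)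
    (hxy : Subgroup.closure {x, y} = ⊤) (φ : FreeMonoid Bool →* G) (hφ : Function.Injective φ) :
    ∃ L : ℕ, ∀ n : ℕ, 2 ^ n ≤ Set.ncard {g : G | ∃ l : List G, l.length ≤ L * n ∧
      (∀ z ∈ l, z = x ∨ z = y) ∧ l.prod = g} := by
  classical
  have hpos : ∀ g : G, ∃ l : List G, (∀ z ∈ l, z = x ∨ z = y) ∧ l.prod = g := by
    intro g
    have hg : g ∈ Subgroup.closure {x, y} := by rw [hxy]; trivial
    induction hg using Subgroup.closure_induction'' with
    | mem z hz => exact ⟨[z], by simpa using hz, by simp⟩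
    | inv_mem z hz =>
      rcases hz with rfl | rfl
      · exact ⟨[z], by simp, by simpa [eq_inv_iff_mul_eq_one] using hx⟩
      · refine ⟨[z, z], by simp, ?_⟩
        rw [eq_inv_iff_mul_eq_one, ← hy]
        simp [pow_succ]
    | one => exact ⟨[], by simp, rfl⟩
    | mul a b _ _ ha hb =>
      obtain ⟨l, hl, rfl⟩ := ha
      obtain ⟨l', hl', rfl⟩ := hb
      refine ⟨l ++ l', fun z hz => ?_, List.prod_append⟩
      rcases List.mem_append.1 hz with h | h
      exacts [hl z h, hl' z h]
  choose wd hwd hprod using hpos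
  set L := max (wd (φ (FreeMonoid.of true))).length (wd (φ (FreeMonoid.of false))).length
  have hL : ∀ b, (wd (φ (FreeMonoid.of b))).length ≤ L := by
    intro b
    cases b
    exacts [le_max_right _ _, le_max_left _ _]
  have hball : ∀ l : List Bool, ∃ l' : List G, l'.length ≤ L * l.length ∧
      (∀ z ∈ l', z = x ∨ z = y) ∧ l'.prod = φ (FreeMonoid.ofList l) := by
    intro l
    induction l with
    | nil => exact ⟨[], by simp, by simp, by simp⟩
    | cons b l ih =>
      obtain ⟨l', h1, h2, h3⟩ := ih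
      refine ⟨wd (φ (FreeMonoid.of b)) ++ l', ?_, fun z hz => ?_, ?_⟩
      · rw [List.length_append, List.length_cons, mul_add, mul_one, add_comm]
        exact add_le_add h1 (hL b)
      · rcases List.mem_append.1 hz with h | h
        exacts [hwd _ z h, h2 z h]
      · rw [List.prod_append, hprod, h3, FreeMonoid.ofList_cons, map_mul]
  refine ⟨L, fun n => ?_⟩
  have hfin : {g : G | ∃ l : List G, l.length ≤ L * n ∧
      (∀ z ∈ l, z = x ∨ z = y) ∧ l.prod = g}.Finite := by
    refine ((List.finite_length_le Bool (L * n)).image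
      fun l => (l.map fun b => if b then x else y).prod).subset ?_
    rintro g ⟨l, h1, h2, rfl⟩
    refine ⟨l.map fun z => decide (z = x), by simpa using h1, ?_⟩
    simp only [List.map_map]
    congr 1
    conv_rhs => rw [← List.map_id l]
    refine List.map_congr_left fun z hz => ?_
    by_cases hz' : z = x
    · simp [hz']
    · simp only [Function.comp_apply, hz', decide_false, Bool.false_eq_true, if_false, id]
      exact ((h2 z hz).resolve_left hz').symm
  have h1 : (Set.univ : Set (Fin n → Bool)).ncard = 2 ^ n := by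
    rw [Set.ncard_univ, Nat.card_eq_fintype_card]
    simp
  rw [← h1]
  refine Set.ncard_le_ncard_of_injOn (fun v => φ (FreeMonoid.ofList (List.ofFn v)))
    (fun v _ => ?_) (fun v _ v' _ h => ?_) hfin
  · simpa using hball (List.ofFn v)
  · exact List.ofFn_injective (FreeMonoid.ofList.injective (hφ h))

end Vale.Agent.N196
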