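import Vale.Agent.P196.Tile.Inst

/-!
# P196, second hand-in: generators of `grp ι LS`

A subgroup that contains the even floor permutations, one nontrivial even floor permutation
above each tile, and one translation in each lattice direction, contains `grp ι LS`.
-/

namespace Vale.Agent.N196

open Equiv Vale.Agent.P196 Vale.Agent.P196.S0 Vale.Agent.P196.Wang

/-- the set of lattice points carrying the tile `θ`. -/
def Tl (θ : Tile) : Set Z2 := {u | t u = θ}

theorem Tl_mem (θ : Tile) : Tl θ ∈ LS := LS_ty θ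

/-- Induction on local sets. -/
theorem LS_induction (S : Set (Set Z2)) (hu : Set.univ ∈ S) (hc : ∀ E ∈ S, Eᶜ ∈ S)
    (hi : ∀ E ∈ S, ∀ F ∈ S, E ∩ F ∈ S) (ht : ∀ (θ : Tile) (v : Z2), {u | u - v ∈ Tl θ} ∈ S) :
    LS ⊆ S := by
  classical
  have hun : ∀ E ∈ S, ∀ F ∈ S, E ∪ F ∈ S := fun E hE F hF => by
    have := hc _ (hi _ (hc E hE) _ (hc F hF))
    rwa [Set.compl_inter, compl_compl, compl_compl] at this
  have hem : (∅ : Set Z2) ∈ S := by simpa using hc _ hu
  have hI : ∀ {J : Type} (s : Finset J) (E : J → Set Z2), (∀ j, E j ∈ S) → (⋂ j ∈ s, E j) ∈ S := by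
    intro J s E h
    induction s using Finset.induction_on with
    | empty => simpa using hu
    | insert a s _ ih => rw [Finset.set_biInter_insert]; exact hi _ (h a) _ ih
  have hU : ∀ {J : Type} (s : Finset J) (E : J → Set Z2), (∀ j, E j ∈ S) → (⋃ j ∈ s, E j) ∈ S := by
    intro J s E h
    induction s using Finset.induction_on with
    | empty => simpa using hem
    | insert a s _ ih => rw [Finset.set_biUnion_insert]; exact hun _ (h a) _ ih
  rintro E ⟨R, hR⟩
  set Box : Finset Z2 := Finset.Icc (-(R : ℤ)) R ×ˢ Finset.Icc (-(R : ℤ)) R with hBox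
  let Cyl : (Box → Tile) → Set Z2 := fun π =>
    ⋂ p ∈ (Finset.univ : Finset Box), {u | u - (-(p : Z2)) ∈ Tl (π p)}
  have hCyl : ∀ π u, u ∈ Cyl π ↔ ∀ p : Box, t (u + p) = π p := by
    intro π u
    simp [Cyl, Tl]
  have hE : E = ⋃ π ∈ (Finset.univ.filter fun π : Box → Tile => ∃ x ∈ E, x ∈ Cyl π), Cyl π := by
    ext u
    simp only [Set.mem_iUnion, Finset.mem_filter, Finset.mem_univ, true_and, exists_prop]
    constructor
    · intro hu'
      exact ⟨fun p => t (u + p), ⟨u, hu', (hCyl _ _).2 fun _ => rfl⟩, (hCyl _ _).2 fun _ => rfl⟩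
    · rintro ⟨π, ⟨x, hx, hxπ⟩, huπ⟩
      refine (hR x u fun a b ha hb => ?_).1 hx
      have hab : (a, b) ∈ Box := by
        rw [hBox, Finset.mem_product, Finset.mem_Icc, Finset.mem_Icc]
        exact ⟨abs_le.1 ha, abs_le.1 hb⟩
      have h1 := (hCyl _ _).1 hxπ ⟨(a, b), hab⟩
      have h2 := (hCyl _ _).1 huπ ⟨(a, b), hab⟩
      exact h1.trans h2.symm
  rw [hE]
  exact hU _ _ fun π => hI _ _ fun p => ht _ _

variable {ι : Type} [Fintype ι] [DecidableEq ι]

omit [Fintype ι] [DecidableEq ι] in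
theorem eP_conj_univ (E : Set Z2) (a b : Perm ι) :
    eP Set.univ a * eP E b * (eP Set.univ a)⁻¹ = eP E (a * b * a⁻¹) := by
  rw [mul_inv_eq_iff_eq_mul]
  ext1 ⟨u, f⟩
  rw [Perm.mul_apply, Perm.mul_apply, eP_apply_mem (Set.mem_univ u) (f := f)]
  by_cases hu : u ∈ E
  · rw [eP_apply_mem hu, eP_apply_mem hu, eP_apply_mem (Set.mem_univ u)]
    simp
  · rw [eP_apply_notMem hu, eP_apply_notMem hu, eP_apply_mem (Set.mem_univ u)]

omit [Fintype ι] [DecidableEq ι] in
theorem eP_comm_inter (E F : Set Z2) (a b : Perm ι) :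
    eP (E ∩ F) (a * b * a⁻¹ * b⁻¹) = eP E a * eP F b * (eP E a)⁻¹ * (eP F b)⁻¹ := by
  have key : eP (E ∩ F) (a * b * a⁻¹ * b⁻¹) * eP F b * eP E a = eP E a * eP F b := by
    ext1 ⟨u, f⟩
    simp only [Perm.mul_apply]
    by_cases hF : u ∈ F <;> by_cases hE : u ∈ E
    · rw [eP_apply_mem hE, eP_apply_mem hF, eP_apply_mem hF, eP_apply_mem hE,
        eP_apply_mem (Set.mem_inter hE hF)]
      simp
    · rw [eP_apply_notMem hE, eP_apply_mem hF, eP_apply_notMem hE,
        eP_apply_notMem (fun h => hE h.1)]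
    · rw [eP_apply_mem hE, eP_apply_notMem hF, eP_apply_notMem hF, eP_apply_mem hE,
        eP_apply_notMem (fun h => hF h.2)]
    · rw [eP_apply_notMem hE, eP_apply_notMem hF, eP_apply_notMem hE,
        eP_apply_notMem (fun h => hF h.2)]
  rw [eq_mul_inv_iff_mul_eq, eq_mul_inv_iff_mul_eq, key]

omit [Fintype ι] [DecidableEq ι] in
theorem eP_conj_dP (a : Perm ι) (w : ι → Z2) :
    eP Set.univ a * dP w * (eP Set.univ a)⁻¹ = dP (fun f => w (a⁻¹ f)) := by
  rw [mul_inv_eq_iff_eq_mul]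
  ext1 ⟨u, f⟩
  rw [Perm.mul_apply, Perm.mul_apply, dP_apply, eP_apply_mem (Set.mem_univ _),
    eP_apply_mem (Set.mem_univ _), dP_apply]
  simp

/-- `H` contains all even floor permutations above `E`. -/
def Good (H : Subgroup (Perm (Z2 × ι))) (E : Set Z2) : Prop :=
  ∀ a ∈ alternatingGroup ι, eP E a ∈ H

variable {H : Subgroup (Perm (Z2 × ι))}

theorem good_compl (hu : Good H Set.univ) {E : Set Z2} (hE : Good H E) : Good H Eᶜ := by
  intro a ha
  have h := eP_union (E := E) (F := Eᶜ) disjoint_compl_right a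
  rw [Set.union_compl_self] at h
  have : eP Eᶜ a = (eP E a)⁻¹ * eP Set.univ a := by rw [h]; group
  rw [this]
  exact H.mul_mem (H.inv_mem (hE a ha)) (hu a ha)

theorem good_inter (hι : 5 ≤ Fintype.card ι) {E F : Set Z2} (hE : Good H E) (hF : Good H F) :
    Good H (E ∩ F) := by
  have h5 : 5 ≤ Nat.card ι := by rwa [Nat.card_eq_fintype_card]
  have : alternatingGroup ι ≤ H.comap (ePHom (E ∩ F)) := by
    rw [← commutator_alternatingGroup_eq_self h5, Subgroup.commutator_le]
    intro a ha b hb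
    rw [Subgroup.mem_comap, ePHom_apply, commutatorElement_def, eP_comm_inter]
    exact H.mul_mem (H.mul_mem (H.mul_mem (hE a ha) (hF b hb)) (H.inv_mem (hE a ha)))
      (H.inv_mem (hF b hb))
  exact fun a ha => this ha

theorem good_trans (hι : 5 ≤ Fintype.card ι) (hd : ∀ w : ι → Z2, ∑ i, w i = 0 → dP w ∈ H)
    {E : Set Z2} (hE : Good H E) (v : Z2) : Good H {u | u - v ∈ E} := by
  have : alternatingGroup ι ≤ H.comap (ePHom {u | u - v ∈ E}) := by
    refine alternating_le_of_cyc _ fun a b c hab hbc hac => ?_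
    obtain ⟨w, hw, h1, h2, h3⟩ := exists_w hι hab hbc hac v v v
    rw [Subgroup.mem_comap, ePHom_apply, ← dP_conj_eP (w := w)]
    · exact H.mul_mem (H.mul_mem (hd w hw) (hE _ (cyc_mem_alternating hab hbc)))
        (H.inv_mem (hd w hw))
    · intro f hf
      by_contra hne
      refine hf (cyc_apply_of ?_ ?_ ?_) <;> rintro rfl
      exacts [hne h1, hne h2, hne h3]
  exact fun a ha => this ha

theorem good_of_one (hι : 5 ≤ Fintype.card ι) (hu : Good H Set.univ) {E : Set Z2} {τ : Perm ι}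
    (hτ : τ ∈ alternatingGroup ι) (h1 : τ ≠ 1) (hE : eP E τ ∈ H) : Good H E := by
  have h5 : 5 ≤ Nat.card ι := by rwa [Nat.card_eq_fintype_card]
  have := alternatingGroup.isSimpleGroup h5
  let N : Subgroup (alternatingGroup ι) := (H.comap (ePHom E)).subgroupOf (alternatingGroup ι)
  have hN : N.Normal := ⟨fun n hn g => by
    have hn' : eP E (n : Perm ι) ∈ H := hn
    change eP E ((g : Perm ι) * (n : Perm ι) * (g : Perm ι)⁻¹) ∈ H
    rw [← eP_conj_univ]
    exact H.mul_mem (H.mul_mem (hu _ g.2) hn') (H.inv_mem (hu _ g.2))⟩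
  rcases hN.eq_bot_or_eq_top with h | h
  · exfalso
    have hm : (⟨τ, hτ⟩ : alternatingGroup ι) ∈ N := hE
    rw [h, Subgroup.mem_bot] at hm
    exact h1 (congrArg Subtype.val hm)
  · intro a ha
    have hm : (⟨a, ha⟩ : alternatingGroup ι) ∈ N := by rw [h]; trivial
    exact hm

/-- one translation in the direction `e` gives all of them. -/
theorem dP_pair (hι : 5 ≤ Fintype.card ι) (hu : Good H Set.univ) {e : Z2} {i j : ι} (hij : i ≠ j)
    (h : dP (Pi.single i e - Pi.single j e) ∈ H) (k l : ι) :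
    dP (Pi.single k e - Pi.single l e) ∈ H := by
  have hk : ∀ k, dP (Pi.single i e - Pi.single k e) ∈ H := by
    intro k
    by_cases hki : k = i
    · subst hki; rw [sub_self, dP_zero]; exact H.one_mem
    by_cases hkj : k = j
    · subst hkj; exact h
    obtain ⟨m, hm⟩ := exists_floor hι {i, j, k} ((Finset.card_le_three).trans (by norm_num))
    simp only [Finset.mem_insert, Finset.mem_singleton, not_or] at hm
    have ha : cyc j k m ∈ alternatingGroup ι := cyc_mem_alternating (Ne.symm hkj) (Ne.symm hm.2.2)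
    have h2 := H.mul_mem (H.mul_mem (hu _ ha) h) (H.inv_mem (hu _ ha))
    rw [eP_conj_dP] at h2
    have e1 : cyc j k m i = i := cyc_apply_of hij (Ne.symm hki) (Ne.symm hm.1)
    have e2 : cyc j k m j = k := cyc_apply_a (Ne.symm hkj) (Ne.symm hm.2.1)
    have : (fun f => (Pi.single i e - Pi.single j e : ι → Z2) ((cyc j k m)⁻¹ f)) =
        Pi.single i e - Pi.single k e := by
      funext f
      have i1 : (cyc j k m)⁻¹ f = i ↔ f = i := by rw [Perm.inv_eq_iff_eq, e1]
      have i2 : (cyc j k m)⁻¹ f = j ↔ f = k := by rw [Perm.inv_eq_iff_eq, e2]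
      simp only [Pi.sub_apply, Pi.single_apply, i1, i2]
    rwa [this] at h2
  have h3 := H.mul_mem (H.inv_mem (hk k)) (hk l)
  rw [dP_inv, dP_mul] at h3
  have : -(Pi.single i e - Pi.single k e : ι → Z2) + (Pi.single i e - Pi.single l e) =
      Pi.single k e - Pi.single l e := by abel
  rwa [this] at h3

/-- the translations in `H`. -/
def transl (H : Subgroup (Perm (Z2 × ι))) : AddSubgroup (ι → Z2) where
  carrier := {w | dP w ∈ H}
  zero_mem' := by change dP 0 ∈ H; rw [dP_zero]; exact H.one_mem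
  add_mem' := fun {a b} ha hb => by change dP (a + b) ∈ H; rw [← dP_mul]; exact H.mul_mem ha hb
  neg_mem' := fun {a} ha => by change dP (-a) ∈ H; rw [← dP_inv]; exact H.inv_mem ha

theorem dP_all (h1 : ∀ k l : ι, dP (Pi.single k ((1, 0) : Z2) - Pi.single l ((1, 0) : Z2)) ∈ H)
    (h2 : ∀ k l : ι, dP (Pi.single k ((0, 1) : Z2) - Pi.single l ((0, 1) : Z2)) ∈ H) (i0 : ι)
    (w : ι → Z2) (hw : ∑ i, w i = 0) : dP w ∈ H := by
  have h3 : ∀ (k : ι) (v : Z2), (Pi.single k v - Pi.single i0 v : ι → Z2) ∈ transl H := by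
    intro k v
    have := (transl H).add_mem ((transl H).zsmul_mem (h1 k i0) v.1)
      ((transl H).zsmul_mem (h2 k i0) v.2)
    have e : v.1 • (Pi.single k ((1, 0) : Z2) - Pi.single i0 ((1, 0) : Z2) : ι → Z2) +
        v.2 • (Pi.single k ((0, 1) : Z2) - Pi.single i0 ((0, 1) : Z2) : ι → Z2) =
        Pi.single k v - Pi.single i0 v := by
      funext f
      simp only [Pi.add_apply, Pi.smul_apply, Pi.sub_apply, Pi.single_apply]
      split_ifs <;> simp [Prod.ext_iff]
    rwa [e] at this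
  have h5 : w = ∑ i, (Pi.single i (w i) - Pi.single i0 (w i)) := by
    have h6 : ∑ i, (Pi.single i0 (w i) : ι → Z2) = 0 := by
      ext1 k
      rw [Finset.sum_apply]
      by_cases hk : k = i0
      · subst hk
        simpa using hw
      · simp [hk]
    rw [Finset.sum_sub_distrib, Finset.univ_sum_single, h6, sub_zero]
  rw [h5]
  exact (transl H).sum_mem fun i _ => h3 i (w i)

theorem grp_le (hι : 5 ≤ Fintype.card ι) (hu : Good H Set.univ) (hT : ∀ θ, Good H (Tl θ))
    (hd : ∀ w : ι → Z2, ∑ i, w i = 0 → dP w ∈ H) : grp ι LS ≤ H := by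
  have hLS : LS ⊆ {E | Good H E} :=
    LS_induction _ hu (fun _ hE => good_compl hu hE) (fun _ hE _ hF => good_inter hι hE hF)
      fun θ v => good_trans hι hd (hT θ) v
  rw [grp, Subgroup.closure_le]
  rintro x (⟨F, hF, a, ha, rfl⟩ | ⟨w, hw, rfl⟩)
  · exact hLS hF a ha
  · exact hd w hw

end Vale.Agent.N196
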