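import Mathlib

/-!
# P196, second hand-in: quotients of the modular group

A group generated by `x, y` with `x ^ 2 = y ^ 3 = 1` is a quotient of `PSL(2, ℤ)`; if it is
finitely presented, the kernel is the normal closure of a finite set.
-/

namespace Vale.Agent.N196

open ModularGroup Matrix MatrixGroups

/-- the element of order three of the modular group. -/
def mU : SL(2, ℤ) := S * T

/-- the lower triangular generator. -/
def mL : SL(2, ℤ) := ⟨!![1, 0; 1, 1], by simp [Matrix.det_fin_two_of]⟩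

theorem mU_cube : mU * (mU * mU) = -1 := by decide
theorem S_mU : S * mU = -T := by decide
theorem S_mU2 : S * (mU * mU) = -mL := by decide
theorem S_mL : S * mL = mU * mU := by decide
theorem S_S : S * S = -1 := by decide
theorem mU_inv : mU⁻¹ = -(mU * mU) := by decide

/-- the underlying matrix. -/
def cm (A : SL(2, ℤ)) : Matrix (Fin 2) (Fin 2) ℤ := A.1

theorem cm_mul (A B : SL(2, ℤ)) : cm (A * B) = cm A * cm B := rfl
theorem cm_neg (A : SL(2, ℤ)) : cm (-A) = -cm A := rfl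
theorem cm_one : cm 1 = !![1, 0; 0, 1] := by decide
theorem cm_S : cm S = !![0, -1; 1, 0] := rfl
theorem cm_T : cm T = !![1, 1; 0, 1] := rfl
theorem cm_mL : cm mL = !![1, 0; 1, 1] := rfl
theorem cm_mU : cm mU = !![0, -1; 1, 1] := by decide
theorem cm_mU2 : cm (mU * mU) = !![-1, -1; 1, 0] := by decide

/-- positive words in `T` and `mL`. -/
def mW (l : List Bool) : SL(2, ℤ) := (l.map fun b => if b then T else mL).prod

theorem mW_pos (l : List Bool) : 1 ≤ cm (mW l) 0 0 ∧ 0 ≤ cm (mW l) 0 1 ∧ 0 ≤ cm (mW l) 1 0 ∧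
    1 ≤ cm (mW l) 1 1 ∧ (l ≠ [] → 1 ≤ cm (mW l) 0 1 + cm (mW l) 1 0) := by
  induction l with
  | nil => simp [mW, cm_one]
  | cons b l ih =>
    obtain ⟨h1, h2, h3, h4, -⟩ := ih
    have e : mW (b :: l) = (if b then T else mL) * mW l := by simp [mW]
    rw [e, cm_mul]
    cases b <;> simp [cm_mL, cm_T, Matrix.mul_apply, Fin.sum_univ_two] <;> omega

variable {G : Type} [Group G]

/-- the same words in `G`. -/
def gW (x y : G) (l : List Bool) : G := (l.map fun b => if b then x * y else x * (y * y)).prod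

/-- normal forms. -/
def NF (x y : G) (A : SL(2, ℤ)) (g : G) : Prop :=
  ∃ (l : List Bool) (B C : SL(2, ℤ)) (b c : G),
    (B = 1 ∧ b = 1 ∨ B = mU ∧ b = y ∨ B = mU * mU ∧ b = y * y) ∧
    (C = 1 ∧ c = 1 ∨ C = S ∧ c = x) ∧
    (A = B * mW l * C ∨ A = -(B * mW l * C)) ∧ g = b * gW x y l * c

variable {x y : G}

theorem NF.neg {A : SL(2, ℤ)} {g : G} (h : NF x y A g) : NF x y (-A) g := by
  obtain ⟨l, B, C, b, c, h1, h2, h3, h4⟩ := h
  refine ⟨l, B, C, b, c, h1, h2, ?_, h4⟩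
  rcases h3 with rfl | rfl
  · exact Or.inr rfl
  · exact Or.inl (neg_neg _)

theorem NF.of_pos {f : SL(2, ℤ)} {A : SL(2, ℤ)} {g k : G} (h : NF x y A g)
    (hf : ∀ (l : List Bool) (B C : SL(2, ℤ)) (b c : G),
      (B = 1 ∧ b = 1 ∨ B = mU ∧ b = y ∨ B = mU * mU ∧ b = y * y) →
      (C = 1 ∧ c = 1 ∨ C = S ∧ c = x) → NF x y (f * (B * mW l * C)) (k * (b * gW x y l * c))) :
    NF x y (f * A) (k * g) := by
  obtain ⟨l, B, C, b, c, h1, h2, h3, rfl⟩ := h
  rcases h3 with rfl | rfl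
  · exact hf l B C b c h1 h2
  · rw [mul_neg]
    exact (hf l B C b c h1 h2).neg

theorem NF.mulU (hy : y * (y * y) = 1) {A : SL(2, ℤ)} {g : G} (h : NF x y A g) :
    NF x y (mU * A) (y * g) := by
  refine h.of_pos fun l B C b c h1 h2 => ?_
  rcases h1 with ⟨rfl, rfl⟩ | ⟨rfl, rfl⟩ | ⟨rfl, rfl⟩
  · exact ⟨l, mU, C, y, c, Or.inr (Or.inl ⟨rfl, rfl⟩), h2, Or.inl (by simp [mul_assoc]),
      by simp [mul_assoc]⟩
  · exact ⟨l, mU * mU, C, b * b, c, Or.inr (Or.inr ⟨rfl, rfl⟩), h2, Or.inl (by simp [mul_assoc]),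
      by simp [mul_assoc]⟩
  · refine ⟨l, 1, C, 1, c, Or.inl ⟨rfl, rfl⟩, h2, Or.inr ?_, ?_⟩
    · rw [← mul_assoc, ← mul_assoc, mU_cube, neg_mul, neg_mul]
    · rw [← mul_assoc, ← mul_assoc, hy]

theorem NF.mulS (hx : x * x = 1) {A : SL(2, ℤ)} {g : G} (h : NF x y A g) :
    NF x y (S * A) (x * g) := by
  refine h.of_pos fun l B C b c h1 h2 => ?_
  have m1 : ∀ l, mW (true :: l) = T * mW l := fun l => by simp [mW]
  have m2 : ∀ l, mW (false :: l) = mL * mW l := fun l => by simp [mW]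
  have g1 : ∀ l, gW x y (true :: l) = x * y * gW x y l := fun l => by simp [gW]
  have g2 : ∀ l, gW x y (false :: l) = x * (y * y) * gW x y l := fun l => by simp [gW]
  have hxx : ∀ z : G, x * (x * z) = z := fun z => by rw [← mul_assoc, hx, one_mul]
  rcases h1 with ⟨hB, hb⟩ | ⟨hB, hb⟩ | ⟨hB, hb⟩ <;> rw [hB, hb]
  · rcases l with _ | ⟨_ | _, l⟩
    · rcases h2 with ⟨hC, hc⟩ | ⟨hC, hc⟩ <;> rw [hC, hc]
      · exact ⟨[], 1, S, 1, x, Or.inl ⟨rfl, rfl⟩, Or.inr ⟨rfl, rfl⟩, Or.inl (by simp [mW]),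
          by simp [gW]⟩
      · exact ⟨[], 1, 1, 1, 1, Or.inl ⟨rfl, rfl⟩, Or.inl ⟨rfl, rfl⟩,
          Or.inr (by simp only [mW, List.map_nil, List.prod_nil, one_mul, S_S]),
          by simp [gW, hx]⟩
    · refine ⟨l, mU * mU, C, y * y, c, Or.inr (Or.inr ⟨rfl, rfl⟩), h2, Or.inl ?_, ?_⟩
      · rw [m2, ← S_mL]
        simp only [one_mul, mul_assoc]
      · rw [g2]
        simp only [one_mul, mul_assoc, hxx]
    · refine ⟨l, mU, C, y, c, Or.inr (Or.inl ⟨rfl, rfl⟩), h2, Or.inl ?_, ?_⟩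
      · rw [m1, mU]
        simp only [one_mul, mul_assoc]
      · rw [g1]
        simp only [one_mul, mul_assoc, hxx]
  · refine ⟨true :: l, 1, C, 1, c, Or.inl ⟨rfl, rfl⟩, h2, Or.inr ?_, ?_⟩
    · rw [m1, ← mul_assoc, ← mul_assoc, S_mU, neg_mul, neg_mul, one_mul]
    · rw [g1]
      simp only [one_mul, mul_assoc]
  · refine ⟨false :: l, 1, C, 1, c, Or.inl ⟨rfl, rfl⟩, h2, Or.inr ?_, ?_⟩
    · rw [m2, ← mul_assoc, ← mul_assoc, S_mU2, neg_mul, neg_mul, one_mul]
    · rw [g2]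
      simp only [one_mul, mul_assoc]

theorem NF.eq_one {A : SL(2, ℤ)} {g : G} (h : NF x y A g) (h1 : cm A 0 1 = 0)
    (h2 : cm A 1 0 = 0) : g = 1 := by
  obtain ⟨l, B, C, b, c, hB, hC, hA, rfl⟩ := h
  have h3 : cm (B * mW l * C) 0 1 = 0 ∧ cm (B * mW l * C) 1 0 = 0 := by
    rcases hA with rfl | rfl
    · exact ⟨h1, h2⟩
    · simpa [cm_neg] using And.intro h1 h2
  obtain ⟨p1, p2, p3, p4, p5⟩ := mW_pos l
  rw [cm_mul, cm_mul] at h3
  simp only [Matrix.mul_apply, Fin.sum_univ_two] at h3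
  rcases hB with ⟨hB, hb⟩ | ⟨hB, hb⟩ | ⟨hB, hb⟩ <;> rcases hC with ⟨hC, hc⟩ | ⟨hC, hc⟩ <;>
    rw [hB, hC] at h3
  · have hl : l = [] := by
      by_contra hl
      have := p5 hl
      simp [cm_one] at h3
      omega
    simp [hb, hc, hl, gW]
  all_goals
    exfalso
    simp [cm_one, cm_S, cm_mU, cm_mU2] at h3
    omega

/-- the free group onto the modular group. -/
def toSL : FreeGroup (Fin 2) →* SL(2, ℤ) := FreeGroup.lift ![S, mU]

theorem toSL_surj : Function.Surjective toSL := by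
  rw [← MonoidHom.range_eq_top, eq_top_iff, ← SpecialLinearGroup.SL2Z_generators,
    Subgroup.closure_le]
  have hS : S ∈ toSL.range := ⟨FreeGroup.of 0, by simp [toSL]⟩
  have hU : mU ∈ toSL.range := ⟨FreeGroup.of 1, by simp [toSL]⟩
  rintro A (rfl | rfl)
  · exact hS
  · have := toSL.range.mul_mem (toSL.range.inv_mem hS) hU
    rwa [mU, inv_mul_cancel_left] at this

theorem NF_free (hx : x * x = 1) (hy : y * (y * y) = 1) (w : FreeGroup (Fin 2)) :
    NF x y (toSL w) (FreeGroup.lift ![x, y] w) := by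
  have hw : w ∈ Subgroup.closure (Set.range (FreeGroup.of : Fin 2 → _)) := by
    rw [FreeGroup.closure_range_of]; trivial
  induction hw using Subgroup.closure_induction_left with
  | one => exact ⟨[], 1, 1, 1, 1, Or.inl ⟨rfl, rfl⟩, Or.inl ⟨rfl, rfl⟩, Or.inl (by simp [mW]),
      by simp [gW]⟩
  | mul_left a ha z _ ih =>
    obtain ⟨i, rfl⟩ := ha
    rw [map_mul, map_mul, toSL, FreeGroup.lift_apply_of, FreeGroup.lift_apply_of]
    fin_cases i
    · exact ih.mulS hx
    · exact ih.mulU hy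
  | inv_mul_cancel a ha z _ ih =>
    obtain ⟨i, rfl⟩ := ha
    rw [map_mul, map_mul, map_inv, map_inv, toSL, FreeGroup.lift_apply_of,
      FreeGroup.lift_apply_of]
    fin_cases i
    · have := (ih.mulS hx).neg
      rw [← neg_mul, ← S_inv] at this
      have e : x⁻¹ = x := inv_eq_of_mul_eq_one_right hx
      simpa [e, toSL] using this
    · have := ((ih.mulU hy).mulU hy).neg
      rw [← mul_assoc, ← neg_mul, ← mU_inv, ← mul_assoc] at this
      have e : y⁻¹ = y * y := inv_eq_of_mul_eq_one_right hy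
      simpa [e, toSL] using this

/-- finite presentability does not depend on the finite generating set. -/
theorem ker_fng [hG : Group.IsFinitelyPresented G] {m : ℕ} (π : FreeGroup (Fin m) →* G)
    (hπ : Function.Surjective π) : π.ker.IsFinitelyNormallyGenerated := by
  obtain ⟨n, ρ, hρ, R, hR, hker⟩ := hG.out
  choose s hs using fun i : Fin n => hπ (ρ (FreeGroup.of i))
  choose r hr using fun i : Fin m => hρ (π (FreeGroup.of i))
  let σ : FreeGroup (Fin n) →* FreeGroup (Fin m) := FreeGroup.lift s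
  let τ : FreeGroup (Fin m) →* FreeGroup (Fin n) := FreeGroup.lift r
  have h1 : π.comp σ = ρ := FreeGroup.ext_hom _ _ fun i => by simp [σ, hs]
  have h2 : ρ.comp τ = π := FreeGroup.ext_hom _ _ fun i => by simp [τ, hr]
  have h1' : ∀ z, π (σ z) = ρ z := fun z => by rw [← h1]; rfl
  have h2' : ∀ z, ρ (τ z) = π z := fun z => by rw [← h2]; rfl
  set R' : Set (FreeGroup (Fin m)) :=
    σ '' R ∪ Set.range fun i => (FreeGroup.of i)⁻¹ * σ (τ (FreeGroup.of i)) with hR'
  refine ⟨R', (hR.image _).union (Set.finite_range _), le_antisymm ?_ fun w hw => ?_⟩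
  · refine Subgroup.normalClosure_le_normal ?_
    rintro z (⟨a, ha, rfl⟩ | ⟨i, rfl⟩)
    · have : a ∈ ρ.ker := hker ▸ Subgroup.subset_normalClosure ha
      simpa [h1'] using this
    · simp [h1', h2']
  · have h3 : (QuotientGroup.mk' (Subgroup.normalClosure R')) =
        (QuotientGroup.mk' (Subgroup.normalClosure R')).comp (σ.comp τ) :=
      FreeGroup.ext_hom _ _ fun i => QuotientGroup.eq.2
        (Subgroup.subset_normalClosure (Or.inr ⟨i, rfl⟩))
    have h4 : τ w ∈ Subgroup.normalClosure R := by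
      rw [hker, MonoidHom.mem_ker, h2']
      exact hw
    have h5 : Subgroup.normalClosure R ≤ (Subgroup.normalClosure R').comap σ :=
      Subgroup.normalClosure_le_normal fun a ha =>
        Subgroup.subset_normalClosure (Or.inl ⟨a, ha, rfl⟩)
    rw [← QuotientGroup.eq_one_iff, ← QuotientGroup.mk'_apply, h3]
    exact (QuotientGroup.eq_one_iff _).2 (h5 h4)

theorem modular_quotient [Group.IsFinitelyPresented G] (hx : x * x = 1) (hy : y ^ 3 = 1)
    (hxy : Subgroup.closure {x, y} = ⊤) :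
    ∃ π : Matrix.ProjectiveSpecialLinearGroup (Fin 2) ℤ →* G, Function.Surjective π ∧
      π.ker.IsFinitelyNormallyGenerated := by
  have hy' : y * (y * y) = 1 := by rw [← hy, pow_succ', pow_two]
  let φ : FreeGroup (Fin 2) →* Matrix.ProjectiveSpecialLinearGroup (Fin 2) ℤ :=
    (QuotientGroup.mk' _).comp toSL
  have hφ : Function.Surjective φ := (QuotientGroup.mk'_surjective _).comp toSL_surj
  let ψ : FreeGroup (Fin 2) →* G := FreeGroup.lift ![x, y]
  have hψ : Function.Surjective ψ := by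
    rw [← MonoidHom.range_eq_top, eq_top_iff, ← hxy, Subgroup.closure_le]
    rintro z (rfl | rfl)
    · exact ⟨FreeGroup.of 0, by simp [ψ]⟩
    · exact ⟨FreeGroup.of 1, by simp [ψ]⟩
  have hker : φ.ker ≤ ψ.ker := by
    intro w hw
    have h1 : toSL w ∈ Subgroup.center SL(2, ℤ) := (QuotientGroup.eq_one_iff _).1 hw
    obtain ⟨r, -, hr⟩ := Matrix.SpecialLinearGroup.mem_center_iff.1 h1
    have hr' : cm (toSL w) = Matrix.scalar (Fin 2) r := hr.symm
    exact (NF_free hx hy' w).eq_one 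
      (by rw [hr', Matrix.scalar_apply, Matrix.diagonal_apply_ne _ (by decide)])
      (by rw [hr', Matrix.scalar_apply, Matrix.diagonal_apply_ne _ (by decide)])
  let π := φ.liftOfSurjective hφ ⟨ψ, hker⟩
  have hπ : ∀ w, π (φ w) = ψ w := fun w =>
    φ.liftOfRightInverse_comp_apply _ _ ⟨ψ, hker⟩ w
  refine ⟨π, fun g => ?_, ?_⟩
  · obtain ⟨w, rfl⟩ := hψ g
    exact ⟨φ w, hπ w⟩
  · have h1 : π.ker = ψ.ker.map φ := by
      ext z
      obtain ⟨w, rfl⟩ := hφ z
      rw [MonoidHom.mem_ker, hπ]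
      refine ⟨fun h => ⟨w, h, rfl⟩, ?_⟩
      rintro ⟨w', hw', e⟩
      rw [← hπ, ← e, hπ]
      exact hw'
    rw [h1]
    exact (ker_fng ψ hψ).map hφ

end Vale.Agent.N196
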