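import Vale.Agent.N196.Member
import Vale.Agent.N196.Free
import Vale.Agent.N196.Modular
import Vale.Agent.P196.H513.FinalMod
import Vale.Agent.P196.Cut.Fact
import Vale.Agent.P196.Cut.StmtC979
import Vale.Agent.P196.Cut.StmtE
import Vale.Agent.P196.Cut.StmtF
import Vale.Agent.P196.H697.StmtA
import Vale.Agent.P196.H798.Dec4

/-!
# P196, second hand-in: the group `grp Fl LS`
-/

namespace Vale.Agent.N196

open Equiv Vale.Agent.P196 Vale.Agent.P196.S0

theorem grp_fp : Group.IsFinitelyPresented (grp Fl Wang.LS) :=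
  FIN.fp_of_P_S (H783.H104_perfect (ι := Fl) card_Fl) (H783.theoremP card_Fl)
    (fun π hs hk hp => H700.ker_fg card_five Wang.localSets.univ
      (H513.cutInput_of' (le_trans (by norm_num) card_Fl) (H798.stmtDec Fl)
        (Cut.fact_of H697.stmtB Cut.stmtC979 Cut.stmtE Cut.stmtF) H697.stmtB Cut.stmtC979)
      π hs hk hp)

theorem main : ∃ (G : Type) (_ : Group G), Infinite G ∧ Group.IsFinitelyPresented G ∧
    IsSimpleGroup G ∧ IsAmenable G ∧
    ∃ x y : G, orderOf x = 2 ∧ orderOf y = 3 ∧ Subgroup.closure {x, y} = ⊤ ∧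
      (∃ π : Matrix.ProjectiveSpecialLinearGroup (Fin 2) ℤ →* G, Function.Surjective π ∧
        π.ker.IsFinitelyNormallyGenerated) ∧
      (∃ φ : FreeMonoid Bool →* G, Function.Injective φ) ∧
      ∃ L : ℕ, ∀ n : ℕ, 2 ^ n ≤ Set.ncard {g : G | ∃ l : List G, l.length ≤ L * n ∧
        (∀ z ∈ l, z = x ∨ z = y) ∧ l.prod = g} := by
  have hfp := grp_fp
  let x : grp Fl Wang.LS := ⟨X, X_mem_grp⟩
  let y : grp Fl Wang.LS := ⟨Y, Y_mem_grp⟩
  have hx : x * x = 1 := Subtype.ext X_sq
  have hy : y ^ 3 = 1 := Subtype.ext (by rw [SubgroupClass.coe_pow]; exact Y_cube)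
  have hxy : Subgroup.closure {x, y} = ⊤ := by
    apply Subgroup.map_injective (grp Fl Wang.LS).subtype_injective
    rw [MonoidHom.map_closure, Set.image_pair, ← MonoidHom.range_eq_map, Subgroup.range_subtype]
    exact HH_eq
  have : Fact (Nat.Prime 3) := ⟨by norm_num⟩
  obtain ⟨φ, hφ⟩ := free_submonoid (ι := Fl) card_five
  exact ⟨grp Fl Wang.LS, inferInstance, infinite_grp card_five, hfp,
    isSimple card_five Wang.localSets, H964.isAmenable_grp_wang Fl, x, y,
    orderOf_eq_prime (by rw [pow_two]; exact hx) fun h => X_ne (congrArg Subtype.val h),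
    orderOf_eq_prime hy fun h => Y_ne (congrArg Subtype.val h), hxy, modular_quotient hx hy hxy,
    ⟨φ, hφ⟩, growth hx hy hxy φ hφ⟩

end Vale.Agent.N196
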