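import Vale.Agent.N196.Alt

/-!
# P196, second hand-in: `X` and `Y` generate `grp Fl LS`
-/

namespace Vale.Agent.N196

open Equiv Vale.Agent.P196 Vale.Agent.P196.S0 Vale.Agent.P196.Wang

theorem card_Fl : 12 ≤ Fintype.card Fl := by
  have h := Fintype.card_le_of_embedding emb
  have h2 : Fintype.card (Option P) = 19 := by decide
  omega

theorem card_five : 5 ≤ Fintype.card Fl := le_trans (by norm_num) card_Fl

/-- the edges inside a block. -/
def l0 : Perm P :=
  swap .c0 .a1 * swap .c1 .a2 * swap .c2 .a3 * swap .c3 .a4 * swap .c4 .a5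

/-- the edges inside a block, with or without the handle. -/
def loc (b : Bool) : Perm P := if b then l0 * swap .b2 .b3 else l0

theorem sign_loc (b : Bool) : Perm.sign (loc b) = -1 * if b then -1 else 1 := by
  cases b <;> simp [loc, l0]

/-- the shift of the first corners. -/
noncomputable def sh : Perm (B × P) :=
  Equiv.prodCongrLeft fun p : P => if p = .a0 then nx else 1

/-- the edges between the blocks. -/
noncomputable def conn : Perm (B × P) :=
  sh * (Equiv.prodCongrRight fun _ : B => swap P.a0 P.c5) * sh⁻¹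

theorem conn_apply (j : B) (p : P) : conn (j, p) =
    if p = .a0 then (nx⁻¹ j, .c5) else if p = .c5 then (nx j, .a0) else (j, p) := by
  have h1 : ∀ j p, sh (j, p) = ((if p = P.a0 then nx else 1) j, p) := fun _ _ => rfl
  have h2 : ∀ j p, sh⁻¹ (j, p) = ((if p = P.a0 then nx else 1)⁻¹ j, p) := fun j p => by
    rw [Perm.inv_eq_iff_eq, h1, ← Perm.mul_apply, mul_inv_cancel, Perm.one_apply]
  rw [conn, Perm.mul_apply, Perm.mul_apply, h2, Equiv.prodCongrRight_apply, h1]
  cases p <;> simp [swap_apply_def]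

theorem sign_conn : Perm.sign conn = ∏ _j : B, (-1 : ℤˣ) := by
  rw [conn, map_mul, map_mul, map_inv, mul_inv_cancel_comm, Perm.sign_prodCongrRight]
  simp

theorem loc_table (b : Bool) (p : P) : loc b p = match p with
    | .c0 => .a1 | .a1 => .c0 | .c1 => .a2 | .a2 => .c1 | .c2 => .a3 | .a3 => .c2
    | .c3 => .a4 | .a4 => .c3 | .c4 => .a5 | .a5 => .c4
    | .b2 => if b then .b3 else .b2 | .b3 => if b then .b2 else .b3 | q => q := by
  cases b <;> cases p <;> decide

theorem cP_eq (θ : Tile) : cP θ = swap none (some (j0, P.b2)) *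
    Equiv.optionCongr (conn * Equiv.prodCongrRight fun j : B => loc (on j θ)) := by
  ext1 f
  rw [Perm.mul_apply, cP_apply]
  rcases f with _ | ⟨j, p⟩
  · simp [cf]
  rw [Equiv.optionCongr_apply, Option.map_some, Perm.mul_apply, Equiv.prodCongrRight_apply,
    loc_table, conn_apply]
  cases p
  case b2 =>
    by_cases hj : j = j0
    · simp [cf, hj]
    · cases h : on j θ <;> simp [cf, hj, h, swap_apply_def]
  case b3 =>
    cases h : on j θ
    · simp [cf, h, swap_apply_def]
    · have hj : j ≠ j0 := by rintro rfl; simp at h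
      simp [cf, hj, h, swap_apply_def]
  all_goals simp [cf, swap_apply_def]

theorem prod_on (θ : Tile) : (∏ j : B, if on j θ then (-1 : ℤˣ) else 1) = -1 := by
  rw [Fintype.prod_sum_type, Fintype.prod_prod_type, Finset.prod_eq_one, Fin.prod_univ_four]
  · simp [on]
  · intro θ' _
    rw [Fintype.prod_bool]
    exact Int.units_mul_self _

theorem cP_mem (θ : Tile) : cP θ ∈ alternatingGroup Fl := by
  rw [Perm.mem_alternatingGroup, cP_eq, map_mul, Perm.sign_swap (by simp), Equiv.optionCongr_sign,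
    map_mul, sign_conn, Perm.sign_prodCongrRight]
  simp only [sign_loc]
  rw [Finset.prod_mul_distrib, prod_on, ← mul_assoc (∏ _j : B, (-1 : ℤˣ)), Int.units_mul_self]
  simp

theorem tile_perm_mem {ι : Type} [Fintype ι] [DecidableEq ι] (c : Tile → Perm ι)
    (hc : ∀ θ, c θ ∈ alternatingGroup ι) :
    (Equiv.prodCongrRight fun u : Z2 => c (t u) : Perm (Z2 × ι)) ∈ grp ι LS := by
  have key : ∀ S : Finset Tile, (Equiv.prodCongrRight fun u : Z2 =>
      if t u ∈ S then c (t u) else 1 : Perm (Z2 × ι)) ∈ grp ι LS := by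
    intro S
    induction S using Finset.induction_on with
    | empty =>
      have : (Equiv.prodCongrRight fun u : Z2 =>
          if t u ∈ (∅ : Finset Tile) then c (t u) else 1 : Perm (Z2 × ι)) = 1 := by
        ext1 ⟨u, f⟩
        simp
      rw [this]
      exact (grp ι LS).one_mem
    | insert θ S hθ ih =>
      have : (Equiv.prodCongrRight fun u : Z2 =>
          if t u ∈ insert θ S then c (t u) else 1 : Perm (Z2 × ι)) = eP (Tl θ) (c θ) *
          (Equiv.prodCongrRight fun u : Z2 => if t u ∈ S then c (t u) else 1) := by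
        ext1 ⟨u, f⟩
        rw [Perm.mul_apply, Equiv.prodCongrRight_apply, Equiv.prodCongrRight_apply]
        by_cases hu : t u = θ
        · rw [eP_apply_mem (show u ∈ Tl θ from hu)]
          simp [hu, hθ]
        · rw [eP_apply_notMem (show u ∉ Tl θ from hu)]
          simp [hu]
      rw [this]
      exact (grp ι LS).mul_mem (eP_mem (Tl_mem θ) (hc θ)) ih
  simpa using key Finset.univ

theorem sum_wv : ∑ f, wv f = 0 := by
  rw [Fintype.sum_option, Fintype.sum_prod_type, Finset.sum_eq_zero]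
  · rfl
  · intro j _
    have : ∀ p, wv (some (j, p)) =
        (if p = P.b2 then -vv j else 0) + if p = P.b3 then vv j else 0 := by
      intro p
      cases p <;> simp [wv]
    simp only [this]
    rw [Finset.sum_add_distrib, Finset.sum_ite_eq', Finset.sum_ite_eq']
    simp

theorem X_mem_grp : X ∈ grp Fl LS :=
  (grp Fl LS).mul_mem (dP_mem sum_wv) (tile_perm_mem cP cP_mem)

theorem yF_cube : yF ^ 3 = 1 := by
  ext1 f
  rw [pow_succ, pow_two, Perm.mul_apply, Perm.mul_apply]
  rcases f with _ | ⟨j, p⟩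
  · rfl
  · cases p <;> rfl

theorem yF_alt : yF ∈ alternatingGroup Fl := by
  rw [Perm.mem_alternatingGroup]
  have h := congrArg Perm.sign yF_cube
  rwa [map_pow, map_one, pow_succ, pow_two, Int.units_mul_self, one_mul] at h

theorem Y_mem_grp : Y ∈ grp Fl LS := eP_mem LS_univ yF_alt

theorem Y_cube : Y ^ 3 = 1 := by
  rw [Y, ← ePHom_apply, ← map_pow, yF_cube, map_one]

theorem X_ne : X ≠ 1 := fun h => by
  have := X_none 0
  rw [h] at this
  simp at this

theorem Y_ne : Y ≠ 1 := fun h => by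
  have := Y_apply 0 (some (j0, .a0))
  rw [h] at this
  simp [rf] at this

/-- the three floors used to extract the handle. -/
def s2 (j : B) : Perm Fl := cyc (some (j, .b2)) (some (j, .b0)) (some (j, .b1))

/-- their image under the handle. -/
def s3 (j : B) : Perm Fl := cyc (some (j, .b3)) (some (j, .b0)) (some (j, .b1))

theorem s2_alt (j : B) : s2 j ∈ alternatingGroup Fl := cyc_mem_alternating (by simp) (by simp)

theorem s3_alt (j : B) : s3 j ∈ alternatingGroup Fl := cyc_mem_alternating (by simp) (by simp)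

theorem Cc_conj {j : B} (hj : j ≠ j0) : Cc * eP Set.univ (s2 j) * Cc⁻¹ =
    eP {u | on j (t u) = true} (s3 j * (s2 j)⁻¹) * eP Set.univ (s2 j) := by
  rw [mul_inv_eq_iff_eq_mul]
  ext1 ⟨u, f⟩
  have hC : ∀ f, Cc (u, f) = (u, cP (t u) f) := fun _ => rfl
  have hc : cP (t u) * s2 j = (if on j (t u) then s3 j else s2 j) * cP (t u) := by
    rw [← mul_inv_eq_iff_eq_mul, s2, cyc_conj]
    cases h : on j (t u) <;> simp [cf, hj, h, s3]
  have hc' := congrArg (fun σ : Perm Fl => σ f) hc
  simp only [Perm.mul_apply] at hc' ⊢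
  rw [eP_apply_mem (Set.mem_univ u), hC, hC, eP_apply_mem (Set.mem_univ u), hc']
  cases h : on j (t u)
  · rw [eP_apply_notMem (by simp [h])]
    simp
  · rw [eP_apply_mem (by simp [h])]
    simp

theorem X_conj {j : B} (hj : j ≠ j0) :
    dP wv * (eP {u | on j (t u) = true} (s3 j * (s2 j)⁻¹) * eP Set.univ (s2 j)) * (dP wv)⁻¹ ∈
      HH := by
  have h := HH.mul_mem (HH.mul_mem X_mem (good_univ _ (s2_alt j))) (HH.inv_mem X_mem)
  rw [← Cc_conj hj]
  have e : dP wv * (Cc * eP Set.univ (s2 j) * Cc⁻¹) * (dP wv)⁻¹ =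
      X * eP Set.univ (s2 j) * X⁻¹ := by
    rw [X]
    group
  rwa [e]

theorem wv_block {j : B} (h : vv j = 0) (p : P) : wv (some (j, p)) = 0 := by
  cases p <;> simp [wv, h]

theorem good_tile (θ : Tile) : Good HH (Tl θ) := by
  set j : B := .inl (θ, true) with hjd
  have hj : j ≠ j0 := by simp [hjd, j0]
  have hv : vv j = 0 := rfl
  have hT : {u | on j (t u) = true} = Tl θ := by
    ext u
    simp [hjd, on, Tl, eq_comm]
  have h := X_conj hj
  have h2 : ∀ f, s2 j f ≠ f → wv f = 0 := fun f hf => by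
    by_contra hne
    refine hf (cyc_apply_of ?_ ?_ ?_) <;> rintro rfl <;> exact hne (wv_block hv _)
  have h3 : ∀ f, s3 j f ≠ f → wv f = 0 := fun f hf => by
    by_contra hne
    refine hf (cyc_apply_of ?_ ?_ ?_) <;> rintro rfl <;> exact hne (wv_block hv _)
  have h4 : ∀ f, (s3 j * (s2 j)⁻¹) f ≠ f → wv f = 0 := fun f hf => by
    by_contra hne
    have a2 : s2 j f = f := by by_contra hh; exact hne (h2 f hh)
    have a3 : s3 j f = f := by by_contra hh; exact hne (h3 f hh)
    apply hf
    rw [Perm.mul_apply, Perm.inv_eq_iff_eq.2 a2.symm, a3]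
  have e : dP wv * (eP (Tl θ) (s3 j * (s2 j)⁻¹) * eP Set.univ (s2 j)) * (dP wv)⁻¹ =
      (dP wv * eP (Tl θ) (s3 j * (s2 j)⁻¹) * (dP wv)⁻¹) *
        (dP wv * eP Set.univ (s2 j) * (dP wv)⁻¹) := by group
  rw [hT, e, dP_conj_eP h4, dP_conj_eP h2] at h
  simp only [sub_zero, Set.ofPred_mem_eq] at h
  have h5 : eP (Tl θ) (s3 j * (s2 j)⁻¹) ∈ HH := by
    have := HH.mul_mem h (HH.inv_mem (good_univ _ (s2_alt j)))
    rwa [mul_inv_cancel_right] at this
  refine good_of_one card_five good_univ
    ((alternatingGroup Fl).mul_mem (s3_alt j) ((alternatingGroup Fl).inv_mem (s2_alt j))) ?_ h5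
  intro h1
  rw [mul_inv_eq_one] at h1
  have h6 := congrArg (fun σ : Perm Fl => σ (some (j, .b1))) h1
  simp only [s2, s3, cyc_apply_c] at h6
  simp at h6

theorem dP_handle {j : B} (hj : j ≠ j0) (hon : ∀ θ, on j θ = true) :
    dP (Pi.single (some (j, P.b3)) (vv j) - Pi.single (some (j, P.b0)) (vv j)) ∈ HH := by
  have h := X_conj hj
  have hT : {u | on j (t u) = true} = Set.univ := by
    ext u
    simp [hon]
  rw [hT, ← ePHom_apply, ← ePHom_apply, ← map_mul, inv_mul_cancel_right, ePHom_apply] at h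
  have h2 := HH.mul_mem h (HH.inv_mem (good_univ _ (s3_alt j)))
  rw [mul_assoc, mul_assoc, ← mul_assoc (eP Set.univ (s3 j)), dP_inv, eP_conj_dP, dP_mul] at h2
  have e : (wv + fun f => (-wv) ((s3 j)⁻¹ f)) =
      Pi.single (some (j, P.b3)) (vv j) - Pi.single (some (j, P.b0)) (vv j) := by
    have e0 : (s3 j)⁻¹ (some (j, .b0)) = some (j, .b3) := by
      rw [Perm.inv_eq_iff_eq, s3, cyc_apply_a (by simp) (by simp)]
    have e1 : (s3 j)⁻¹ (some (j, .b1)) = some (j, .b0) := by
      rw [Perm.inv_eq_iff_eq, s3, cyc_apply_b (by simp) (by simp)]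
    have e3 : (s3 j)⁻¹ (some (j, .b3)) = some (j, .b1) := by
      rw [Perm.inv_eq_iff_eq, s3, cyc_apply_c]
    funext f
    simp only [Pi.add_apply, Pi.neg_apply, Pi.sub_apply]
    by_cases a0 : f = some (j, .b0)
    · subst a0; rw [e0]; simp [wv]
    by_cases a1 : f = some (j, .b1)
    · subst a1; rw [e1]; simp [wv]
    by_cases a3 : f = some (j, .b3)
    · subst a3; rw [e3]; simp [wv]
    have e4 : (s3 j)⁻¹ f = f := by
      rw [Perm.inv_eq_iff_eq, s3, cyc_apply_of a3 a0 a1]
    rw [e4, Pi.single_eq_of_ne a0, Pi.single_eq_of_ne a3]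
    simp
  rwa [e] at h2

theorem HH_eq : HH = grp Fl LS := by
  refine le_antisymm ?_ (grp_le card_five good_univ good_tile (dP_all ?_ ?_ none))
  · rw [HH, Subgroup.closure_le]
    rintro x (rfl | rfl)
    exacts [X_mem_grp, Y_mem_grp]
  · exact dP_pair card_five good_univ (by simp)
      (dP_handle (j := .inr 1) (by simp [j0]) fun _ => rfl)
  · exact dP_pair card_five good_univ (by simp)
      (dP_handle (j := .inr 2) (by simp [j0]) fun _ => rfl)

end Vale.Agent.N196
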